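import Vale.Agent.P123.Edge
import Mathlib.Analysis.Calculus.MeanValue
import Mathlib.Analysis.SpecialFunctions.Log.Deriv
import Mathlib.Analysis.SpecialFunctions.Pow.Deriv

/-! Cauchy integral formula for the resolvent along a closed polygon. -/

open scoped InnerProductSpace ComplexConjugate

namespace Vale.Agent.P123

variable {H : Type*} [NormedAddCommGroup H] [InnerProductSpace ℂ H] [CompleteSpace H]

/-- The point with parameter `t` on the edge `j`. -/
noncomputable def pt (q : ℕ → ℂ) (j : ℕ) (t : ℝ) : ℂ := q j + t * (q (j + 1) - q j)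

lemma pt_zero (q : ℕ → ℂ) (j : ℕ) : pt q j 0 = q j := by simp [pt]

lemma pt_one (q : ℕ → ℂ) (j : ℕ) : pt q j 1 = q (j + 1) := by simp [pt]

lemma continuous_pt (q : ℕ → ℂ) (j : ℕ) : Continuous (pt q j) := by
  unfold pt; fun_prop

lemma hasDerivAt_pt (q : ℕ → ℂ) (j : ℕ) (t : ℝ) : HasDerivAt (pt q j) (q (j + 1) - q j) t := by
  unfold pt
  simpa using ((Complex.ofRealCLM.hasDerivAt (x := t)).mul_const
    (q (j + 1) - q j)).const_add (q j)

/-- The numerical range is strictly inside the polygon. -/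
def Inside (q : ℕ → ℂ) (N : ℕ) (c : ℝ) (A : H →L[ℂ] H) : Prop :=
  ∀ j < N, LeftOf (q j) (q (j + 1) - q j) c A

variable {q : ℕ → ℂ} {N : ℕ} {c : ℝ} {A : H →L[ℂ] H}

lemma Inside.cont (h : Inside q N c A) (hc : 0 < c) {j : ℕ} (hj : j < N) :
    Continuous fun t => resolvent A (pt q j t) := (h j hj).continuous hc

lemma Inside.mem (h : Inside q N c A) (hc : 0 < c) {j : ℕ} (hj : j < N) (t : ℝ) :
    pt q j t ∈ resolventSet ℂ A := ((h j hj).shift t).mem hc

lemma Inside.norm_le (h : Inside q N c A) (hc : 0 < c) {j : ℕ} (hj : j < N) (t : ℝ) :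
    ‖resolvent A (pt q j t)‖ ≤ ‖q (j + 1) - q j‖ / c := ((h j hj).shift t).norm_resolvent_le hc

lemma Inside.cint_sq (h : Inside q N c A) (hc : 0 < c) (hN : q N = q 0) :
    cint N (fun j t => (q (j + 1) - q j) • resolvent A (pt q j t) ^ 2) = 0 := by
  refine cint_eq_zero_of_primitive (g := fun j t => -resolvent A (pt q j t))
    (fun j => -resolvent A (q j)) (fun j hj => by have := h.cont hc hj; fun_prop)
    (fun j hj t => ?_) (fun j _ => by rw [pt_zero, pt_one]) (by rw [hN])
  exact ((h j hj).hasDerivAt hc t).neg.congr_deriv (neg_neg _)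

/-- The Cauchy integral of the resolvent. -/
noncomputable def G (q : ℕ → ℂ) (N : ℕ) (A : H →L[ℂ] H) : H →L[ℂ] H :=
  cint N (fun j t => (q (j + 1) - q j) • resolvent A (pt q j t))

lemma norm_G_sub_le {A' B : H →L[ℂ] H} {s : ℝ} (h : Inside q N c A) (h' : Inside q N c A')
    (hc : 0 < c) (hN : q N = q 0) (hB : Commute B A) (hA' : A' - A = (s : ℂ) • B) :
    ‖G q N A' - G q N A‖ ≤
      (∑ j ∈ Finset.range N, ‖q (j + 1) - q j‖ * (‖q (j + 1) - q j‖ / c) ^ 3 * ‖B‖ ^ 2)
        * s ^ 2 := by
  have hid : ∀ j < N, ∀ t, (q (j + 1) - q j) • resolvent A' (pt q j t)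
      - (q (j + 1) - q j) • resolvent A (pt q j t) =
      (ContinuousLinearMap.mul ℂ (H →L[ℂ] H) ((s : ℂ) • B))
        ((q (j + 1) - q j) • resolvent A (pt q j t) ^ 2) +
      ((q (j + 1) - q j) * s ^ 2) • (resolvent A' (pt q j t) * B * resolvent A (pt q j t) * B
        * resolvent A (pt q j t)) := by
    intro j hj t
    have e1 := spectrum.resolvent_sub_resolvent (h'.mem hc hj t) (h.mem hc hj t)
    rw [hA'] at e1
    have e2 := (commute_resolvent (h.mem hc hj t) hB).eq
    set R := resolvent A (pt q j t)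
    set R' := resolvent A' (pt q j t)
    have e3 : R' = R + (s : ℂ) • (R' * B * R) := by
      rw [← smul_mul_assoc, ← mul_smul_comm, ← e1]; abel
    have e4 : R' * B * R = B * R ^ 2 + (s : ℂ) • (R' * B * R * B * R) := by
      conv_lhs => rw [e3]
      rw [add_mul, add_mul, ← e2, smul_mul_assoc, smul_mul_assoc, pow_two, mul_assoc B R R]
    rw [← smul_sub, e1, mul_smul_comm, smul_mul_assoc, ContinuousLinearMap.mul_apply']
    conv_lhs => rw [e4]
    simp only [smul_add, smul_smul, smul_mul_assoc, mul_smul_comm]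
    congr 2; ring
  have hc1 : ∀ j < N, Continuous fun t => (q (j + 1) - q j) • resolvent A (pt q j t) ^ 2 :=
    fun j hj => by have := h.cont hc hj; fun_prop
  unfold G
  rw [← cint_sub (fun j hj => by have := h'.cont hc hj; fun_prop)
    (fun j hj => by have := h.cont hc hj; fun_prop), cint_congr hid, cint_add
    (fun j hj => by have := h.cont hc hj; fun_prop)
    (fun j hj => by have := h.cont hc hj; have := h'.cont hc hj; fun_prop), cint_clm _ hc1,
      h.cint_sq hc hN, map_zero, zero_add, Finset.sum_mul]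
  refine norm_cint_le fun j hj t _ => ?_
  have b1 := h.norm_le hc hj t
  have b2 := h'.norm_le hc hj t
  set R := resolvent A (pt q j t)
  set R' := resolvent A' (pt q j t)
  set K := ‖q (j + 1) - q j‖ / c
  have b3 : ‖R' * B * R * B * R‖ ≤ K * ‖B‖ * K * ‖B‖ * K := by
    have hK : 0 ≤ K := (norm_nonneg _).trans b1
    refine (norm_mul_le _ _).trans ?_
    gcongr
    refine (norm_mul_le _ _).trans ?_
    gcongr
    refine (norm_mul_le _ _).trans ?_
    gcongr
    refine (norm_mul_le _ _).trans ?_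
    gcongr
  rw [norm_smul, norm_mul, norm_pow, Complex.norm_real, Real.norm_eq_abs, sq_abs]
  calc ‖q (j + 1) - q j‖ * s ^ 2 * ‖R' * B * R * B * R‖
      ≤ ‖q (j + 1) - q j‖ * s ^ 2 * (K * ‖B‖ * K * ‖B‖ * K) := by gcongr
    _ = _ := by ring

lemma const_of_quadratic {E : Type*} [NormedAddCommGroup E] [NormedSpace ℝ E] {g : ℝ → E}
    {K : ℝ} (h : ∀ s ∈ Set.Icc (0 : ℝ) 1, ∀ s' ∈ Set.Icc (0 : ℝ) 1,
      ‖g s' - g s‖ ≤ K * (s' - s) ^ 2) : g 1 = g 0 := by
  have hd : ∀ s ∈ Set.Icc (0 : ℝ) 1, HasDerivWithinAt g 0 (Set.Icc 0 1) s := by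
    intro s hs
    rw [hasDerivWithinAt_iff_isLittleO]
    have h1 : (fun s' => g s' - g s - (s' - s) • (0 : E)) =O[nhdsWithin s (Set.Icc 0 1)]
        fun s' => ‖s' - s‖ ^ 2 := by
      refine Asymptotics.IsBigO.of_bound K ?_
      filter_upwards [self_mem_nhdsWithin] with s' hs'
      simpa using h s hs s' hs'
    exact h1.trans_isLittleO ((Asymptotics.isLittleO_pow_sub_sub s one_lt_two).mono
      nhdsWithin_le_nhds)
  have := (convex_Icc (0 : ℝ) 1).norm_image_sub_le_of_norm_hasDerivWithin_le (C := 0) hd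
    (fun _ _ => by simp) (Set.left_mem_Icc.mpr zero_le_one) (Set.right_mem_Icc.mpr zero_le_one)
  simpa [sub_eq_zero] using this

omit [CompleteSpace H] in
lemma Inside.homotopy (h : Inside q N c A) {w : ℂ} (hw : Inside q N c (w • (1 : H →L[ℂ] H)))
    {s : ℝ} (hs : s ∈ Set.Icc (0 : ℝ) 1) :
    Inside q N c (w • (1 : H →L[ℂ] H) + (s : ℂ) • (A - w • (1 : H →L[ℂ] H))) := by
  intro j hj x
  have h1 := h j hj x
  have h2 := hw j hj x
  have e : conj (q (j + 1) - q j) * (⟪x, (w • (1 : H →L[ℂ] H) +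
      (s : ℂ) • (A - w • (1 : H →L[ℂ] H))) x⟫_ℂ - q j * ((‖x‖ ^ 2 : ℝ) : ℂ)) =
      ((1 - s : ℝ) : ℂ) * (conj (q (j + 1) - q j) * (⟪x, (w • (1 : H →L[ℂ] H)) x⟫_ℂ -
        q j * ((‖x‖ ^ 2 : ℝ) : ℂ))) + (s : ℂ) * (conj (q (j + 1) - q j) * (⟪x, A x⟫_ℂ -
        q j * ((‖x‖ ^ 2 : ℝ) : ℂ))) := by
    simp only [add_apply, smul_apply, sub_apply, inner_add_right, inner_smul_right,
      inner_sub_right]
    push_cast
    ring
  rw [e, Complex.add_im, Complex.im_ofReal_mul, Complex.im_ofReal_mul]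
  have h3 : 0 ≤ 1 - s := by linarith [hs.2]
  nlinarith [mul_le_mul_of_nonneg_left h1 hs.1, mul_le_mul_of_nonneg_left h2 h3]

lemma G_eq_G_scalar (h : Inside q N c A) {w : ℂ} (hw : Inside q N c (w • (1 : H →L[ℂ] H)))
    (hc : 0 < c) (hN : q N = q 0) : G q N A = G q N (w • (1 : H →L[ℂ] H)) := by
  have := const_of_quadratic (g := fun s : ℝ => G q N (w • (1 : H →L[ℂ] H) +
      (s : ℂ) • (A - w • (1 : H →L[ℂ] H)))) fun s hs s' hs' =>
    norm_G_sub_le (B := A - w • (1 : H →L[ℂ] H)) (s := s' - s) (h.homotopy hw hs)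
      (h.homotopy hw hs') hc hN
      (((Commute.one_right _).smul_right w).add_right ((Commute.refl _).smul_right _))
      (by push_cast; rw [sub_smul]; abel)
  simpa using this

/-- The scalar Cauchy integral is a positive multiple of `i`. -/
lemma scalar_cauchy {w : ℂ} (hN0 : 0 < N) (hN : q N = q 0)
    (hw : ∀ j < N, 0 < (conj (q (j + 1) - q j) * (w - q j)).im) :
    ∃ l : ℝ, 0 < l ∧
      cint N (fun j t => (q (j + 1) - q j) * (pt q j t - w)⁻¹) = l * Complex.I := by
  have hw' : ∀ j < N, ∀ t, 0 < (conj (q (j + 1) - q j) * (w - pt q j t)).im := by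
    intro j hj t
    refine (hw j hj).trans_le (le_of_eq ?_)
    unfold pt
    set d := q (j + 1) - q j
    simp only [Complex.mul_im, Complex.sub_im, Complex.sub_re, Complex.mul_re, Complex.add_re,
      Complex.add_im, Complex.conj_re, Complex.conj_im, Complex.ofReal_re, Complex.ofReal_im]
    ring
  have hne : ∀ j < N, ∀ t, pt q j t - w ≠ 0 := by
    intro j hj t h0
    have := hw' j hj t
    rw [← neg_sub (pt q j t), h0] at this
    simp at this
  have hcont : ∀ j < N, Continuous fun t => (q (j + 1) - q j) * (pt q j t - w)⁻¹ :=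
    fun j hj => continuous_const.mul
      (((continuous_pt q j).sub continuous_const).inv₀ (hne j hj))
  have hre : (cint N (fun j t => (q (j + 1) - q j) * (pt q j t - w)⁻¹)).re = 0 := by
    rw [← Complex.reCLM_apply, ← cint_clm Complex.reCLM hcont]
    refine cint_eq_zero_of_primitive (g := fun j t => Real.log (Complex.normSq (pt q j t - w)) / 2)
      (fun j => Real.log (Complex.normSq (q j - w)) / 2)
      (fun j hj => Complex.reCLM.continuous.comp (hcont j hj)) (fun j hj t => ?_)
      (fun j _ => by rw [pt_zero, pt_one]) (by rw [hN])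
    have h1 : HasDerivAt (fun t => pt q j t - w) (q (j + 1) - q j) t :=
      (hasDerivAt_pt q j t).sub_const w
    have h2 := Complex.reCLM.hasFDerivAt.comp_hasDerivAt t h1
    have h3 := Complex.imCLM.hasFDerivAt.comp_hasDerivAt t h1
    have h4 := (h2.mul h2).add (h3.mul h3)
    have h5 : Complex.normSq (pt q j t - w) ≠ 0 := by simpa using hne j hj t
    have h6 := (HasDerivAt.log (f := fun t => Complex.normSq (pt q j t - w)) h4 h5).div_const 2
    refine h6.congr_deriv ?_
    simp only [Complex.reCLM_apply, Complex.imCLM_apply, Function.comp_apply, Complex.mul_re,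
      Complex.inv_re, Complex.inv_im]
    field_simp
    ring
  have him : 0 < (cint N (fun j t => (q (j + 1) - q j) * (pt q j t - w)⁻¹)).im := by
    rw [← Complex.imCLM_apply, ← cint_clm Complex.imCLM hcont]
    refine cint_pos hN0 (fun j hj => Complex.imCLM.continuous.comp (hcont j hj)) fun j hj t => ?_
    have h1 := hw' j hj t
    have h5 : 0 < Complex.normSq (pt q j t - w) := Complex.normSq_pos.mpr (hne j hj t)
    have : Complex.imCLM ((q (j + 1) - q j) * (pt q j t - w)⁻¹) =
        (conj (q (j + 1) - q j) * (w - pt q j t)).im / Complex.normSq (pt q j t - w) := by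
      set d := q (j + 1) - q j
      simp only [Complex.imCLM_apply, Complex.mul_im, Complex.inv_re, Complex.inv_im,
        Complex.conj_re, Complex.conj_im, Complex.sub_re, Complex.sub_im]
      field_simp
      ring
    rw [this]
    positivity
  refine ⟨_, him, Complex.ext ?_ ?_⟩
  · simpa using hre
  · simp

omit [CompleteSpace H] in
lemma resolvent_scalar {w z : ℂ} (h : z - w ≠ 0) :
    resolvent (w • (1 : H →L[ℂ] H)) z = (z - w)⁻¹ • (1 : H →L[ℂ] H) := by
  unfold resolvent
  rw [Algebra.algebraMap_eq_smul_one, ← sub_smul]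
  have h1 : ((z - w) • (1 : H →L[ℂ] H)) * ((z - w)⁻¹ • (1 : H →L[ℂ] H)) = 1 := by
    rw [smul_mul_smul_comm, mul_inv_cancel₀ h, mul_one, one_smul]
  have h2 : ((z - w)⁻¹ • (1 : H →L[ℂ] H)) * ((z - w) • (1 : H →L[ℂ] H)) = 1 := by
    rw [smul_mul_smul_comm, inv_mul_cancel₀ h, mul_one, one_smul]
  exact Ring.inverse_unit ⟨_, _, h1, h2⟩

theorem G_eq [Nontrivial H] (h : Inside q N c A) (hc : 0 < c) (hN0 : 0 < N) (hN : q N = q 0) :
    ∃ l : ℝ, 0 < l ∧ G q N A = ((l : ℂ) * Complex.I) • (1 : H →L[ℂ] H) := by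
  obtain ⟨x, hx⟩ := exists_norm_eq H zero_le_one
  set w := ⟪x, A x⟫_ℂ with hwdef
  have hw : ∀ j < N, c ≤ (conj (q (j + 1) - q j) * (w - q j)).im := by
    intro j hj
    simpa [hx] using h j hj x
  have hw' : Inside q N c (w • (1 : H →L[ℂ] H)) := by
    intro j hj y
    have e : conj (q (j + 1) - q j) * (⟪y, (w • (1 : H →L[ℂ] H)) y⟫_ℂ -
        q j * ((‖y‖ ^ 2 : ℝ) : ℂ)) =
        ((‖y‖ ^ 2 : ℝ) : ℂ) * (conj (q (j + 1) - q j) * (w - q j)) := by
      rw [smul_apply, one_apply_eq_self, inner_smul_right, inner_self_eq_norm_sq_to_K]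
      push_cast
      simp only [Complex.coe_algebraMap]
      ring
    rw [e, Complex.im_ofReal_mul, mul_comm]
    gcongr
    exact hw j hj
  obtain ⟨l, hl, hl'⟩ := scalar_cauchy hN0 hN fun j hj => hc.trans_le (hw j hj)
  refine ⟨l, hl, ?_⟩
  rw [G_eq_G_scalar h hw' hc hN, ← hl']
  have hne : ∀ j < N, ∀ t, pt q j t - w ≠ 0 := by
    intro j hj t h0
    have h1 := (hw' j hj).shift t x
    have h2 : pt q j t = w := sub_eq_zero.mp h0
    change c * ‖x‖ ^ 2 ≤ (conj (q (j + 1) - q j) * (⟪x, (w • (1 : H →L[ℂ] H)) x⟫_ℂ -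
        pt q j t * ((‖x‖ ^ 2 : ℝ) : ℂ))).im at h1
    rw [h2, smul_apply, one_apply_eq_self, inner_smul_right, inner_self_eq_norm_sq_to_K, hx] at h1
    simp at h1
    linarith
  have hcont : ∀ j < N, Continuous fun t => (q (j + 1) - q j) * (pt q j t - w)⁻¹ :=
    fun j hj => continuous_const.mul
      (((continuous_pt q j).sub continuous_const).inv₀ (hne j hj))
  have := cint_clm (ContinuousLinearMap.toSpanSingleton ℂ (1 : H →L[ℂ] H)) hcont
  rw [ContinuousLinearMap.toSpanSingleton_apply] at this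
  rw [← this]
  refine cint_congr fun j hj t => ?_
  rw [resolvent_scalar (hne j hj t), ContinuousLinearMap.toSpanSingleton_apply, mul_smul]

lemma cint_pow (hN : q N = q 0) (k : ℕ) :
    cint N (fun j t => (pt q j t ^ k * (q (j + 1) - q j)) • (1 : H →L[ℂ] H)) = 0 := by
  refine cint_eq_zero_of_primitive
    (g := fun j t => (pt q j t ^ (k + 1) / (k + 1)) • (1 : H →L[ℂ] H))
    (fun j => (q j ^ (k + 1) / (k + 1)) • (1 : H →L[ℂ] H))
    (fun j _ => (((continuous_pt q j).pow k).mul continuous_const).smul continuous_const)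
    (fun j _ t => ?_) (fun j _ => by rw [pt_zero, pt_one]) (by rw [hN])
  have h1 := (((hasDerivAt_pt q j t).pow (k + 1)).div_const ((k : ℂ) + 1)).smul_const
    (1 : H →L[ℂ] H)
  refine h1.congr_deriv ?_
  congr 1
  have : (k : ℂ) + 1 ≠ 0 := by exact_mod_cast Nat.succ_ne_zero k
  rw [Nat.add_sub_cancel]
  push_cast
  field_simp

theorem cauchy_poly (h : Inside q N c A) (hc : 0 < c) (hN : q N = q 0) (P : Polynomial ℂ) :
    cint N (fun j t => (P.eval (pt q j t) * (q (j + 1) - q j)) • resolvent A (pt q j t)) =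
      Polynomial.aeval A P * G q N A := by
  have hcont : ∀ (P : Polynomial ℂ), ∀ j < N, Continuous fun t =>
      (P.eval (pt q j t) * (q (j + 1) - q j)) • resolvent A (pt q j t) := fun P j hj =>
    ((P.continuous.comp (continuous_pt q j)).mul continuous_const).smul (h.cont hc hj)
  have hpow : ∀ k : ℕ, cint N (fun j t => (pt q j t ^ k * (q (j + 1) - q j)) •
      resolvent A (pt q j t)) = A ^ k * G q N A := by
    intro k
    induction k with
    | zero => simp [G]
    | succ k ih =>
      have hc1 : ∀ j < N, Continuous fun t =>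
          (pt q j t ^ k * (q (j + 1) - q j)) • resolvent A (pt q j t) := fun j hj =>
        (((continuous_pt q j).pow k).mul continuous_const).smul (h.cont hc hj)
      have hid : ∀ j < N, ∀ t, (pt q j t ^ (k + 1) * (q (j + 1) - q j)) • resolvent A (pt q j t)
          = (pt q j t ^ k * (q (j + 1) - q j)) • (1 : H →L[ℂ] H) +
            (ContinuousLinearMap.mul ℂ (H →L[ℂ] H) A)
              ((pt q j t ^ k * (q (j + 1) - q j)) • resolvent A (pt q j t)) := by
        intro j hj t
        have e := mul_resolvent (h.mem hc hj t)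
        rw [Algebra.algebraMap_eq_smul_one, sub_mul, smul_mul_assoc, one_mul] at e
        rw [ContinuousLinearMap.mul_apply', mul_smul_comm, ← smul_add, ← e, sub_add_cancel,
          smul_smul]
        congr 1
        ring
      rw [cint_congr hid, cint_add
        (fun j _ => by have := continuous_pt q j; fun_prop)
        (fun j hj => by have := hc1 j hj; fun_prop), cint_clm _ hc1,
        cint_pow hN, ih, zero_add, ContinuousLinearMap.mul_apply', pow_succ', mul_assoc]
  induction P using Polynomial.induction_on' with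
  | add P Q hP hQ =>
    rw [map_add, add_mul, ← hP, ← hQ, ← cint_add (hcont P) (hcont Q)]
    refine cint_congr fun j _ t => ?_
    rw [Polynomial.eval_add, add_mul, add_smul]
  | monomial k a =>
    rw [Polynomial.aeval_monomial, mul_assoc, ← hpow k, Algebra.algebraMap_eq_smul_one,
      smul_mul_assoc, one_mul, ← cint_smul]
    refine cint_congr fun j _ t => ?_
    rw [Polynomial.eval_monomial, smul_smul, mul_assoc]

end Vale.Agent.P123
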