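import Mathlib.Analysis.InnerProductSpace.Positive
import Mathlib.Analysis.Normed.Algebra.GelfandFormula
import Mathlib.MeasureTheory.Integral.IntervalIntegral.FundThmCalculus

/-! Sums of edge integrals, and the resolvent along one edge. -/

open scoped InnerProductSpace ComplexConjugate

namespace Vale.Agent.P123

section cint

variable {E F : Type*} [NormedAddCommGroup E] [NormedSpace ℝ E]
  [NormedAddCommGroup F] [NormedSpace ℝ F]

/-- Sum over the edges of the integral over the unit interval. -/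
noncomputable def cint (N : ℕ) (f : ℕ → ℝ → E) : E :=
  ∑ j ∈ Finset.range N, ∫ t in (0 : ℝ)..1, f j t

lemma cint_congr {N : ℕ} {f g : ℕ → ℝ → E} (h : ∀ j < N, ∀ t, f j t = g j t) :
    cint N f = cint N g := by
  unfold cint
  refine Finset.sum_congr rfl fun j hj => ?_
  congr 1
  funext t
  exact h j (Finset.mem_range.mp hj) t

lemma cint_add {N : ℕ} {f g : ℕ → ℝ → E} (hf : ∀ j < N, Continuous (f j))
    (hg : ∀ j < N, Continuous (g j)) :
    cint N (fun j t => f j t + g j t) = cint N f + cint N g := by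
  unfold cint
  rw [← Finset.sum_add_distrib]
  refine Finset.sum_congr rfl fun j hj => ?_
  have hj' := Finset.mem_range.mp hj
  exact intervalIntegral.integral_add ((hf j hj').intervalIntegrable _ _)
    ((hg j hj').intervalIntegrable _ _)

lemma cint_sub {N : ℕ} {f g : ℕ → ℝ → E} (hf : ∀ j < N, Continuous (f j))
    (hg : ∀ j < N, Continuous (g j)) :
    cint N (fun j t => f j t - g j t) = cint N f - cint N g := by
  unfold cint
  rw [← Finset.sum_sub_distrib]
  refine Finset.sum_congr rfl fun j hj => ?_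
  have hj' := Finset.mem_range.mp hj
  exact intervalIntegral.integral_sub ((hf j hj').intervalIntegrable _ _)
    ((hg j hj').intervalIntegrable _ _)

lemma cint_smul [NormedSpace ℂ E] [SMulCommClass ℝ ℂ E] {N : ℕ} (c : ℂ) (f : ℕ → ℝ → E) :
    cint N (fun j t => c • f j t) = c • cint N f := by
  unfold cint
  rw [Finset.smul_sum]
  refine Finset.sum_congr rfl fun j _ => ?_
  exact intervalIntegral.integral_smul c _

lemma cint_clm {𝕜 : Type*} [RCLike 𝕜] [NormedSpace 𝕜 E] [NormedSpace 𝕜 F] [CompleteSpace E]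
    [CompleteSpace F] {N : ℕ} {f : ℕ → ℝ → E} (L : E →L[𝕜] F)
    (hf : ∀ j < N, Continuous (f j)) :
    cint N (fun j t => L (f j t)) = L (cint N f) := by
  unfold cint
  rw [map_sum]
  refine Finset.sum_congr rfl fun j hj => ?_
  exact L.intervalIntegral_comp_comm ((hf j (Finset.mem_range.mp hj)).intervalIntegrable _ _)

lemma cint_nonneg {N : ℕ} {f : ℕ → ℝ → ℝ} (h : ∀ j < N, ∀ t ∈ Set.Icc (0 : ℝ) 1, 0 ≤ f j t) :
    0 ≤ cint N f :=
  Finset.sum_nonneg fun j hj =>
    intervalIntegral.integral_nonneg zero_le_one (h j (Finset.mem_range.mp hj))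

lemma cint_pos {N : ℕ} (hN : 0 < N) {f : ℕ → ℝ → ℝ} (hf : ∀ j < N, Continuous (f j))
    (h : ∀ j < N, ∀ t, 0 < f j t) : 0 < cint N f :=
  Finset.sum_pos (fun j hj => intervalIntegral.intervalIntegral_pos_of_pos
    ((hf j (Finset.mem_range.mp hj)).intervalIntegrable _ _) (h j (Finset.mem_range.mp hj))
    zero_lt_one) ⟨0, Finset.mem_range.mpr hN⟩

lemma norm_cint_le {N : ℕ} {f : ℕ → ℝ → E} {b : ℕ → ℝ}
    (h : ∀ j < N, ∀ t ∈ Set.Icc (0 : ℝ) 1, ‖f j t‖ ≤ b j) :
    ‖cint N f‖ ≤ ∑ j ∈ Finset.range N, b j := by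
  refine (norm_sum_le _ _).trans (Finset.sum_le_sum fun j hj => ?_)
  have := intervalIntegral.norm_integral_le_of_norm_le_const (a := 0) (b := 1) (C := b j)
    (f := f j) (fun t ht => h j (Finset.mem_range.mp hj) t (by
      rw [Set.uIoc_of_le zero_le_one] at ht
      exact ⟨ht.1.le, ht.2⟩))
  simpa using this

/-- Telescoping along a closed polygon. -/
lemma cint_eq_zero_of_primitive [CompleteSpace E] {N : ℕ} {f g : ℕ → ℝ → E} (v : ℕ → E)
    (hf : ∀ j < N, Continuous (f j)) (hd : ∀ j < N, ∀ t, HasDerivAt (g j) (f j t) t)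
    (hv : ∀ j < N, g j 1 - g j 0 = v (j + 1) - v j) (hN : v N = v 0) : cint N f = 0 := by
  unfold cint
  have : ∀ j ∈ Finset.range N, ∫ t in (0 : ℝ)..1, f j t = v (j + 1) - v j := by
    intro j hj
    have hj' := Finset.mem_range.mp hj
    rw [intervalIntegral.integral_eq_sub_of_hasDerivAt (fun t _ => hd j hj' t)
      ((hf j hj').intervalIntegrable _ _), hv j hj']
  rw [Finset.sum_congr rfl this, Finset.sum_range_sub, hN, sub_self]

end cint

variable {H : Type*} [NormedAddCommGroup H] [InnerProductSpace ℂ H] [CompleteSpace H]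

/-- The numerical range lies strictly to the left of the line through `q` with direction `d`. -/
def LeftOf (q d : ℂ) (c : ℝ) (A : H →L[ℂ] H) : Prop :=
  ∀ x : H, c * ‖x‖ ^ 2 ≤ (conj d * (⟪x, A x⟫_ℂ - q * ((‖x‖ ^ 2 : ℝ) : ℂ))).im

omit [CompleteSpace H] in
lemma LeftOf.shift {q d : ℂ} {c : ℝ} {A : H →L[ℂ] H} (h : LeftOf q d c A) (t : ℝ) :
    LeftOf (q + t * d) d c A := by
  intro x
  refine (h x).trans (le_of_eq ?_)
  simp only [Complex.mul_im, Complex.sub_im, Complex.sub_re, Complex.mul_re, Complex.add_re,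
    Complex.add_im, Complex.conj_re, Complex.conj_im, Complex.ofReal_re, Complex.ofReal_im]
  ring

omit [CompleteSpace H] in
lemma LeftOf.inner_sub {q d : ℂ} {c : ℝ} {A : H →L[ℂ] H} (h : LeftOf q d c A) (x : H) :
    c * ‖x‖ ^ 2 ≤ (-(conj d * ⟪x, (algebraMap ℂ (H →L[ℂ] H) q - A) x⟫_ℂ)).im := by
  refine (h x).trans (le_of_eq ?_)
  congr 1
  rw [Algebra.algebraMap_eq_smul_one, sub_apply,
    smul_apply, one_apply_eq_self, inner_sub_right,
    inner_smul_right, inner_self_eq_norm_sq_to_K]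
  push_cast
  simp only [Complex.coe_algebraMap]
  ring

omit [CompleteSpace H] in
lemma LeftOf.norm_le {q d : ℂ} {c : ℝ} {A : H →L[ℂ] H} (h : LeftOf q d c A) (x : H) :
    c * ‖x‖ ^ 2 ≤ ‖d‖ * ‖⟪x, (algebraMap ℂ (H →L[ℂ] H) q - A) x⟫_ℂ‖ := by
  refine (h.inner_sub x).trans ((Complex.im_le_norm _).trans (le_of_eq ?_))
  rw [norm_neg, norm_mul, Complex.norm_conj]

lemma LeftOf.mem {q d : ℂ} {c : ℝ} {A : H →L[ℂ] H} (h : LeftOf q d c A) (hc : 0 < c) :
    q ∈ resolventSet ℂ A := by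
  rw [spectrum.mem_resolventSet_iff]
  have hd : 0 < ‖d‖ + 1 := by positivity
  refine ContinuousLinearMap.isUnit_of_forall_le_norm_inner_map _
    (c := ⟨c / (‖d‖ + 1), by positivity⟩) (show (0 : ℝ) < c / (‖d‖ + 1) by positivity)
    fun x => ?_
  have h1 := h.norm_le x
  rw [← norm_inner_symm] at h1
  change ‖x‖ ^ 2 * (c / (‖d‖ + 1)) ≤ _
  rw [← mul_div_assoc, div_le_iff₀ hd]
  nlinarith [norm_nonneg ⟪(algebraMap ℂ (H →L[ℂ] H) q - A) x, x⟫_ℂ]

omit [CompleteSpace H] in
lemma mul_resolvent {q : ℂ} {A : H →L[ℂ] H} (h : q ∈ resolventSet ℂ A) :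
    (algebraMap ℂ (H →L[ℂ] H) q - A) * resolvent A q = 1 :=
  Ring.mul_inverse_cancel _ (spectrum.mem_resolventSet_iff.mp h)

omit [CompleteSpace H] in
lemma resolvent_mul {q : ℂ} {A : H →L[ℂ] H} (h : q ∈ resolventSet ℂ A) :
    resolvent A q * (algebraMap ℂ (H →L[ℂ] H) q - A) = 1 :=
  Ring.inverse_mul_cancel _ (spectrum.mem_resolventSet_iff.mp h)

omit [CompleteSpace H] in
lemma commute_resolvent {q : ℂ} {A B : H →L[ℂ] H} (h : q ∈ resolventSet ℂ A)
    (hB : Commute B A) : Commute B (resolvent A q) := by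
  have h1 : Commute B (algebraMap ℂ (H →L[ℂ] H) q - A) :=
    ((Algebra.commute_algebraMap_right q B)).sub_right hB
  rw [spectrum.resolvent_eq h]
  exact Commute.units_inv_right (u := h.unit) h1

lemma LeftOf.norm_resolvent_le {q d : ℂ} {c : ℝ} {A : H →L[ℂ] H} (h : LeftOf q d c A)
    (hc : 0 < c) : ‖resolvent A q‖ ≤ ‖d‖ / c := by
  refine ContinuousLinearMap.opNorm_le_bound _ (by positivity) fun a => ?_
  set b := resolvent A q a with hb
  have hab : (algebraMap ℂ (H →L[ℂ] H) q - A) b = a := by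
    rw [hb, ← mul_apply_eq_comp, mul_resolvent (h.mem hc)]; rfl
  have h1 := h.norm_le b
  rw [hab] at h1
  have h2 : ‖⟪b, a⟫_ℂ‖ ≤ ‖b‖ * ‖a‖ := norm_inner_le_norm _ _
  rcases eq_or_lt_of_le (norm_nonneg b) with h0 | h0
  · rw [← h0]; positivity
  · rw [div_mul_eq_mul_div, le_div_iff₀ hc]
    have h3 : ‖b‖ * (‖b‖ * c) ≤ ‖b‖ * (‖d‖ * ‖a‖) := by
      have : ‖d‖ * ‖⟪b, a⟫_ℂ‖ ≤ ‖d‖ * (‖b‖ * ‖a‖) := by gcongr
      nlinarith
    exact le_of_mul_le_mul_left h3 h0

lemma LeftOf.re_nonneg {q d : ℂ} {c : ℝ} {A : H →L[ℂ] H} (h : LeftOf q d c A)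
    (hc : 0 < c) (a : H) : 0 ≤ (⟪a, ((-Complex.I * d) • resolvent A q) a⟫_ℂ).re := by
  set b := resolvent A q a with hb
  have hab : (algebraMap ℂ (H →L[ℂ] H) q - A) b = a := by
    rw [hb, ← mul_apply_eq_comp, mul_resolvent (h.mem hc)]; rfl
  have h1 := h.inner_sub b
  rw [hab] at h1
  rw [smul_apply, inner_smul_right, ← hb, ← inner_conj_symm]
  have h2 : 0 ≤ c * ‖b‖ ^ 2 := by positivity
  refine (h2.trans h1).trans (le_of_eq ?_)
  simp only [Complex.mul_im, Complex.mul_re, Complex.neg_im, Complex.neg_re, Complex.conj_re,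
    Complex.conj_im, Complex.I_re, Complex.I_im]
  ring

lemma LeftOf.hasDerivAt {q d : ℂ} {c : ℝ} {A : H →L[ℂ] H} (h : LeftOf q d c A)
    (hc : 0 < c) (t : ℝ) :
    HasDerivAt (fun s : ℝ => resolvent A (q + s * d))
      (-(d • resolvent A (q + t * d) ^ 2)) t := by
  have h1 := spectrum.hasDerivAt_resolvent_const_left ((h.shift t).mem hc)
  have h2 : HasDerivAt (fun s : ℝ => q + s * d) d t := by
    simpa using ((Complex.ofRealCLM.hasDerivAt (x := t)).mul_const d).const_add q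
  have h3 := h1.scomp t h2
  simpa [Function.comp_def] using h3

lemma LeftOf.continuous {q d : ℂ} {c : ℝ} {A : H →L[ℂ] H} (h : LeftOf q d c A)
    (hc : 0 < c) : Continuous (fun s : ℝ => resolvent A (q + s * d)) :=
  continuous_iff_continuousAt.mpr fun t => (h.hasDerivAt hc t).continuousAt

end Vale.Agent.P123
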