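import Mathlib.Analysis.InnerProductSpace.Adjoint
import Mathlib.Analysis.SpecificLimits.Basic

/-! The perturbation lemma for 2-dilations. -/

open scoped InnerProductSpace

namespace Vale.Agent.P123

variable {H : Type*} [NormedAddCommGroup H] [InnerProductSpace ℂ H] [CompleteSpace H]

lemma nonneg_of_bdd_of_le_mul {a : ℕ → ℝ} {k B : ℝ} (hk : 1 < k)
    (hrec : ∀ n, a (n + 1) ≤ k * a n) (hB : ∀ n, -B ≤ a n) (m : ℕ) : 0 ≤ a m := by
  by_contra h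
  push Not at h
  have h1 : ∀ n, a (m + n) ≤ k ^ n * a m := by
    intro n
    induction n with
    | zero => simp
    | succ n ih =>
      calc a (m + (n + 1)) = a (m + n + 1) := by rw [add_assoc]
        _ ≤ k * a (m + n) := hrec _
        _ ≤ k * (k ^ n * a m) := by gcongr
        _ = k ^ (n + 1) * a m := by ring
  obtain ⟨n, hn⟩ := pow_unbounded_of_one_lt (B / (-a m)) hk
  have h2 := h1 n
  have h3 := hB (m + n)
  rw [div_lt_iff₀ (by linarith)] at hn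
  nlinarith

lemma exists_approx_max (T : H →L[ℂ] H) (hT : 0 < ‖T‖) {e : ℝ} (he : 0 < e) :
    ∃ x : H, ‖x‖ ≤ 1 ∧ ‖T‖ ^ 2 - e ≤ ‖T x‖ ^ 2 ∧
      ‖ContinuousLinearMap.adjoint T (T x) - ((‖T‖ ^ 2 : ℝ) : ℂ) • x‖ ≤ e := by
  set k := ‖T‖ with hk
  set η : ℝ := min e (e ^ 2 / k ^ 2) with hη
  have hηpos : 0 < η := lt_min he (by positivity)
  have hr : k - η / (2 * k) < ‖T‖ := by
    have : 0 < η / (2 * k) := by positivity
    linarith
  obtain ⟨x, hx, hTx⟩ := T.exists_lt_apply_of_lt_opNorm hr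
  have hTle : ‖T x‖ ≤ k := by
    calc ‖T x‖ ≤ k * ‖x‖ := T.le_opNorm x
      _ ≤ k * 1 := by gcongr
      _ = k := mul_one k
  have hsq : k ^ 2 - η ≤ ‖T x‖ ^ 2 := by
    have h1 : k - ‖T x‖ < η / (2 * k) := by linarith
    have h2 : (k - ‖T x‖) * (2 * k) < η := by rwa [lt_div_iff₀ (by positivity)] at h1
    nlinarith [norm_nonneg (T x)]
  refine ⟨x, hx.le, le_trans (by linarith [min_le_left e (e ^ 2 / k ^ 2)]) hsq, ?_⟩
  have hadj : ‖ContinuousLinearMap.adjoint T (T x)‖ ≤ k * ‖T x‖ := by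
    have := (ContinuousLinearMap.adjoint T).le_opNorm (T x)
    rwa [LinearIsometryEquiv.norm_map] at this
  have hin : RCLike.re ⟪ContinuousLinearMap.adjoint T (T x), ((k ^ 2 : ℝ) : ℂ) • x⟫_ℂ
      = k ^ 2 * ‖T x‖ ^ 2 := by
    rw [inner_smul_right, ContinuousLinearMap.adjoint_inner_left, inner_self_eq_norm_sq_to_K]
    simp [← Complex.ofReal_pow]
  have hn2 : ‖((k ^ 2 : ℝ) : ℂ) • x‖ ≤ k ^ 2 := by
    rw [norm_smul, Complex.norm_real, Real.norm_of_nonneg (by positivity)]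
    calc k ^ 2 * ‖x‖ ≤ k ^ 2 * 1 := by gcongr
      _ = k ^ 2 := mul_one _
  have hsub := @norm_sub_sq ℂ H _ _ _ (ContinuousLinearMap.adjoint T (T x))
    (((k ^ 2 : ℝ) : ℂ) • x)
  rw [hin] at hsub
  have h3 : ‖ContinuousLinearMap.adjoint T (T x)‖ ^ 2 ≤ (k * ‖T x‖) ^ 2 := by gcongr
  have h4 : ‖((k ^ 2 : ℝ) : ℂ) • x‖ ^ 2 ≤ (k ^ 2) ^ 2 := by gcongr
  have h5 : k ^ 2 * η ≤ e ^ 2 := by
    have : η ≤ e ^ 2 / k ^ 2 := min_le_right _ _
    rw [le_div_iff₀ (by positivity)] at this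
    linarith
  have h6 : ‖ContinuousLinearMap.adjoint T (T x) - ((k ^ 2 : ℝ) : ℂ) • x‖ ^ 2 ≤ e ^ 2 := by
    rw [hsub]
    have : k ^ 2 * (k ^ 2 - η) ≤ k ^ 2 * ‖T x‖ ^ 2 := by gcongr
    nlinarith
  exact (pow_le_pow_iff_left₀ (norm_nonneg _) he.le two_ne_zero).mp h6

lemma real_contra {k B e W t s : ℝ} {m : ℕ → ℝ} (hk : 2 < k) (hB : 0 ≤ B) (hepos : 0 < e)
    (hee : e * (2 * (k - 1 + B)) = k ^ 2 * (k - 2)) (hmB : ∀ n, -B ≤ m n) (hW0 : 0 ≤ W)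
    (hrec : ∀ n, 0 ≤ (k - 1) * (k ^ 2 * m n - k * m (n + 1) + B * e) + W) (hs : s ≤ 1)
    (ht : k ^ 2 - e ≤ t) (hW : W = t - k * (t + m 1) + k ^ 2 * s) : False := by
  have hτ : 1 < k - 1 := by linarith
  have hk0 : 0 < k := by linarith
  have hτ0 : 0 < k - 1 := by linarith
  obtain ⟨D, hD0, hDe⟩ : ∃ D : ℝ, 0 ≤ D ∧ D * (k * (k - 1) ^ 2) = (k - 1) * (B * e) + W :=
    ⟨((k - 1) * (B * e) + W) / (k * (k - 1) ^ 2), by positivity, by field_simp⟩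
  have ha : 0 ≤ m 1 + D := by
    refine nonneg_of_bdd_of_le_mul (a := fun n => m n + D) (k := k) (B := B) (by linarith)
      (fun n => ?_) (fun n => ?_) 1
    · have h1 := hrec n
      have h2 : 0 ≤ (k * (k - 1)) * (k * (m n + D) - (m (n + 1) + D)) := by
        have : (k * (k - 1)) * (k * (m n + D) - (m (n + 1) + D)) =
          (k - 1) * (k ^ 2 * m n - k * m (n + 1)) + D * (k * (k - 1) ^ 2) := by ring
        rw [this, hDe]; linarith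
      have h3 : 0 < k * (k - 1) := by positivity
      have := (mul_nonneg_iff_of_pos_left h3).mp h2
      linarith
    · linarith [hmB n]
  have h1 : W ≤ k ^ 2 - (k - 1) * (k ^ 2 - e) + k * D := by
    have h0 : (k - 1) * (k ^ 2 - e) ≤ (k - 1) * t := by gcongr
    have h2 : k ^ 2 * s ≤ k ^ 2 * 1 := by gcongr
    have h3 : 0 ≤ k * (m 1 + D) := by positivity
    rw [hW]; linarith
  have h2 : k * D ≤ B * e + W := by
    have h3 : (k * D) * (k - 1) ^ 2 = (k - 1) * (B * e) + W := by rw [← hDe]; ring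
    have h4 : k - 1 ≤ (k - 1) ^ 2 := by nlinarith
    have h5 : (k - 1) * (B * e) ≤ (k - 1) ^ 2 * (B * e) := by gcongr
    have h6 : 1 * W ≤ (k - 1) ^ 2 * W := by gcongr; linarith
    have h7 : (k * D) * (k - 1) ^ 2 ≤ (B * e + W) * (k - 1) ^ 2 := by linarith
    exact le_of_mul_le_mul_right h7 (by positivity)
  have h3 : 0 < k ^ 2 * (k - 2) := by
    have : 0 < k - 2 := by linarith
    positivity
  linarith

/-- The perturbation lemma. -/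
theorem key (T : H →L[ℂ] H) (E : ℕ → H →L[ℂ] H) (C : ℝ) (hE : ∀ n, ‖E n‖ ≤ C)
    (hT : ∀ n, ‖T ^ n‖ ≤ C) (hc : ∀ n, E n * T = T * E n)
    (hpos : ∀ (n : ℕ) (y u x : H) (τ k : ℝ), 0 ≤ τ ^ 2 * ‖y‖ ^ 2 +
      τ * ((⟪y, (T ^ n) u⟫_ℂ + ⟪E n y, u⟫_ℂ).re
        - k * (⟪y, (T ^ (n + 1)) x⟫_ℂ + ⟪E (n + 1) y, x⟫_ℂ).re) +
      (‖u‖ ^ 2 - k * (⟪u, T x⟫_ℂ + ⟪E 1 u, x⟫_ℂ).re + k ^ 2 * ‖x‖ ^ 2)) :
    ‖T‖ ≤ 2 := by
  by_contra hlt
  push Not at hlt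
  set k := ‖T‖ with hk
  have hC : 0 ≤ C := le_trans (norm_nonneg _) (hE 0)
  have hτ : 1 < k - 1 := by linarith
  -- the small parameter
  set e : ℝ := k ^ 2 * (k - 2) / (2 * (k - 1 + C ^ 2)) with he
  have hepos : 0 < e := by
    have : 0 < k - 2 := by linarith
    positivity
  have hee : e * (2 * (k - 1 + C ^ 2)) = k ^ 2 * (k - 2) := by
    rw [he]; field_simp
  obtain ⟨x, hx, hTx, hr⟩ := exists_approx_max T (by linarith) hepos
  rw [← hk] at hTx hr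
  set r := ContinuousLinearMap.adjoint T (T x) - ((k ^ 2 : ℝ) : ℂ) • x with hrdef
  set m : ℕ → ℝ := fun n => (⟪E n ((T ^ n) x), x⟫_ℂ).re with hm
  have hz : ∀ n, ‖E n ((T ^ n) x)‖ ≤ C ^ 2 := by
    intro n
    calc ‖E n ((T ^ n) x)‖ ≤ ‖E n‖ * ‖(T ^ n) x‖ := (E n).le_opNorm _
      _ ≤ ‖E n‖ * (‖T ^ n‖ * ‖x‖) := by gcongr; exact (T ^ n).le_opNorm _
      _ ≤ C * (C * 1) := by gcongr; exacts [hE n, hT n]
      _ = C ^ 2 := by ring
  have hmB : ∀ n, -(C ^ 2) ≤ m n := by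
    intro n
    have h1 : |m n| ≤ C ^ 2 := by
      calc |m n| ≤ ‖⟪E n ((T ^ n) x), x⟫_ℂ‖ := Complex.abs_re_le_norm _
        _ ≤ ‖E n ((T ^ n) x)‖ * ‖x‖ := norm_inner_le_norm _ _
        _ ≤ C ^ 2 * 1 := by gcongr; exact hz n
        _ = C ^ 2 := mul_one _
    exact (abs_le.mp h1).1
  set W : ℝ := ‖T x‖ ^ 2 - k * (‖T x‖ ^ 2 + m 1) + k ^ 2 * ‖x‖ ^ 2 with hW
  have hWeq : ‖T x‖ ^ 2 - k * (⟪T x, T x⟫_ℂ + ⟪E 1 (T x), x⟫_ℂ).re + k ^ 2 * ‖x‖ ^ 2 = W := by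
    rw [hW, hm, inner_self_eq_norm_sq_to_K]
    simp [← Complex.ofReal_pow]
  have hW0 : 0 ≤ W := by
    have := hpos 0 0 (T x) x 0 k
    rw [hWeq] at this
    simpa using this
  have hrec : ∀ n, 0 ≤ (k - 1) * (k ^ 2 * m n - k * m (n + 1) + C ^ 2 * e) + W := by
    intro n
    have h := hpos n ((T ^ (n + 1)) x) (T x) x (k - 1) k
    rw [hWeq] at h
    have h1 : (T ^ n) (T x) = (T ^ (n + 1)) x := by
      rw [pow_succ]; rfl
    have h2 : E n ((T ^ (n + 1)) x) = T (E n ((T ^ n) x)) := by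
      have := congrArg (fun S : H →L[ℂ] H => S ((T ^ n) x)) (hc n)
      simp only [mul_apply_eq_comp] at this
      rw [← this, pow_succ']; rfl
    have h3 : (⟪E n ((T ^ (n + 1)) x), T x⟫_ℂ).re ≤ k ^ 2 * m n + C ^ 2 * e := by
      rw [h2, ← ContinuousLinearMap.adjoint_inner_right]
      have : ContinuousLinearMap.adjoint T (T x) = ((k ^ 2 : ℝ) : ℂ) • x + r := by
        rw [hrdef]; abel
      rw [this, inner_add_right, inner_smul_right, Complex.add_re, Complex.re_ofReal_mul]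
      have : (⟪E n ((T ^ n) x), r⟫_ℂ).re ≤ C ^ 2 * e := by
        calc (⟪E n ((T ^ n) x), r⟫_ℂ).re ≤ ‖⟪E n ((T ^ n) x), r⟫_ℂ‖ := Complex.re_le_norm _
          _ ≤ ‖E n ((T ^ n) x)‖ * ‖r‖ := norm_inner_le_norm _ _
          _ ≤ C ^ 2 * e := by gcongr; exact hz n
      simp only [hm]
      linarith
    rw [h1, inner_self_eq_norm_sq_to_K, Complex.add_re, Complex.add_re] at h
    have h4 : ((‖(T ^ (n + 1)) x‖ : ℂ) ^ 2).re = ‖(T ^ (n + 1)) x‖ ^ 2 := by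
      simp [← Complex.ofReal_pow]
    have h5 : (⟪E (n + 1) ((T ^ (n + 1)) x), x⟫_ℂ).re = m (n + 1) := rfl
    erw [h4] at h
    rw [h5] at h
    have h6 : (k - 1) * (⟪E n ((T ^ (n + 1)) x), T x⟫_ℂ).re ≤
        (k - 1) * (k ^ 2 * m n + C ^ 2 * e) := by gcongr
    nlinarith
  have hx2 : ‖x‖ ^ 2 ≤ 1 := by nlinarith [norm_nonneg x]
  exact real_contra (by linarith) (by positivity) hepos hee hmB hW0 hrec hx2 hTx hW

end Vale.Agent.P123
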