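import Vale.Agent.P123.Main
import Mathlib.Analysis.InnerProductSpace.PiL2

/-! The lower bound 2, from the nilpotent Jordan block. -/

open scoped InnerProductSpace ComplexConjugate

namespace Vale.Agent.P123

universe u

theorem lower (C : ℝ) (hC : ∀ (H : Type u) [NormedAddCommGroup H] [InnerProductSpace ℂ H]
    [CompleteSpace H] [Nontrivial H] (A : H →L[ℂ] H) (P : Polynomial ℂ),
    ‖Polynomial.aeval A P‖ ≤ C * sSup ((fun z => ‖P.eval z‖) '' W A)) : 2 ≤ C := by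
  let e0 : EuclideanSpace ℂ (ULift.{u} (Fin 2)) := EuclideanSpace.single (ULift.up 0) 1
  let e1 : EuclideanSpace ℂ (ULift.{u} (Fin 2)) := EuclideanSpace.single (ULift.up 1) 1
  let A : EuclideanSpace ℂ (ULift.{u} (Fin 2)) →L[ℂ] EuclideanSpace ℂ (ULift.{u} (Fin 2)) :=
    (innerSL ℂ e1).smulRight e0
  have hA : ∀ x, A x = x (ULift.up 1) • e0 := by
    intro x
    simp [A, e1, EuclideanSpace.inner_single_left]
  have h1 : 1 ≤ ‖A‖ := by
    have := A.le_opNorm e1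
    rw [hA] at this
    simpa [e0, e1] using this
  have h2 : ∀ z ∈ W A, ‖z‖ ≤ 1 / 2 := by
    rintro _ ⟨x, hx, rfl⟩
    rw [hA, inner_smul_right, norm_mul]
    have h3 : ‖⟪x, e0⟫_ℂ‖ = ‖x (ULift.up 0)‖ := by
      simp [e0, EuclideanSpace.inner_single_right]
    have h4 : ‖x‖ ^ 2 = ‖x (ULift.up 0)‖ ^ 2 + ‖x (ULift.up 1)‖ ^ 2 := by
      rw [EuclideanSpace.norm_sq_eq, ← Equiv.ulift.symm.sum_comp, Fin.sum_univ_two]
      rfl
    rw [hx] at h4
    rw [h3]
    nlinarith [sq_nonneg (‖x (ULift.up 0)‖ - ‖x (ULift.up 1)‖)]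
  have h5 := hC _ A Polynomial.X
  rw [Polynomial.aeval_X] at h5
  set S := sSup ((fun z => ‖Polynomial.X.eval z‖) '' W A) with hS
  have h6 : S ≤ 1 / 2 := by
    refine csSup_le ((W_nonempty A).image _) ?_
    rintro _ ⟨z, hz, rfl⟩
    simpa using h2 z hz
  have h7 : 0 ≤ S := Real.sSup_nonneg (by rintro _ ⟨z, _, rfl⟩; exact norm_nonneg _)
  by_contra hlt
  push Not at hlt
  rcases eq_or_lt_of_le h7 with h0 | h0
  · rw [← h0] at h5; linarith
  · nlinarith

end Vale.Agent.P123
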