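import Mathlib.Analysis.InnerProductSpace.Adjoint
import Mathlib.Topology.Order.IntermediateValue

/-! The Toeplitz-Hausdorff theorem. -/

open scoped InnerProductSpace ComplexConjugate

namespace Vale.Agent.P123

variable {H : Type*} [NormedAddCommGroup H] [InnerProductSpace ℂ H]

/-- The numerical range. -/
def W (A : H →L[ℂ] H) : Set ℂ := {z | ∃ x : H, ‖x‖ = 1 ∧ z = ⟪x, A x⟫_ℂ}

lemma exists_unit_real (B : H →L[ℂ] H) {x y : H} (hx : ‖x‖ = 1) (hy : ‖y‖ = 1)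
    (h0 : ⟪x, B x⟫_ℂ = 0) (h1 : ⟪y, B y⟫_ℂ = 1) {s : ℝ} (hs0 : 0 ≤ s) (hs1 : s ≤ 1) :
    ∃ z : H, ‖z‖ = 1 ∧ ⟪z, B z⟫_ℂ = s := by
  obtain ⟨l, hl, hl'⟩ := Complex.exists_norm_eq_mul_self (⟪y, B x⟫_ℂ - conj ⟪x, B y⟫_ℂ)
  set h : ℝ → H := fun t => (((1 - t : ℝ) : ℂ) * l) • x + (t : ℂ) • y with hh
  have hexp : ∀ t : ℝ, ⟪h t, B (h t)⟫_ℂ =
      t ^ 2 + (t * (1 - t) : ℝ) * (conj l * ⟪x, B y⟫_ℂ + l * ⟪y, B x⟫_ℂ) := by
    intro t
    simp only [hh, map_add, map_smul, inner_add_left, inner_add_right, inner_smul_left,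
      inner_smul_right, h0, h1, map_mul, Complex.conj_ofReal]
    push_cast
    ring
  have him0 : (conj l * ⟪x, B y⟫_ℂ + l * ⟪y, B x⟫_ℂ).im = 0 := by
    have := congrArg Complex.im hl'
    simp only [Complex.ofReal_im, Complex.mul_im, Complex.sub_im, Complex.sub_re, Complex.conj_re,
      Complex.conj_im, Complex.add_im] at this ⊢
    linarith
  have him : ∀ t : ℝ, (⟪h t, B (h t)⟫_ℂ).im = 0 := by
    intro t
    rw [hexp, Complex.add_im, Complex.im_ofReal_mul, him0, ← Complex.ofReal_pow,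
      Complex.ofReal_im]
    simp
  have hcont : Continuous fun t : ℝ => (⟪h t, B (h t)⟫_ℂ).re - s * ‖h t‖ ^ 2 := by
    simp only [hh]
    fun_prop
  have hf0 : (⟪h 0, B (h 0)⟫_ℂ).re - s * ‖h 0‖ ^ 2 ≤ 0 := by
    rw [hexp]
    have : 0 ≤ s * ‖h 0‖ ^ 2 := by positivity
    simpa using this
  have hf1 : 0 ≤ (⟪h 1, B (h 1)⟫_ℂ).re - s * ‖h 1‖ ^ 2 := by
    rw [hexp]
    simp [hh, hy, hs1]
  obtain ⟨t, ht, ht0⟩ := intermediate_value_Icc zero_le_one hcont.continuousOn ⟨hf0, hf1⟩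
  have hne : h t ≠ 0 := by
    intro hz
    have e1 : (t : ℂ) • y = -((((1 - t : ℝ) : ℂ) * l) • x) := eq_neg_of_add_eq_zero_right hz
    have e2 : ⟪(t : ℂ) • y, B ((t : ℂ) • y)⟫_ℂ = 0 := by
      rw [e1]
      simp only [map_neg, map_smul, inner_neg_left, inner_neg_right, inner_smul_left,
        inner_smul_right, h0, mul_zero, neg_zero]
    rw [map_smul, inner_smul_left, inner_smul_right, h1] at e2
    have e3 : t = 0 := by simpa using e2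
    have e4 := congrArg norm hz
    simp [hh, e3, norm_smul, hl, hx] at e4
  have hn : 0 < ‖h t‖ := norm_pos_iff.mpr hne
  refine ⟨((‖h t‖⁻¹ : ℝ) : ℂ) • h t, ?_, ?_⟩
  · rw [norm_smul, Complex.norm_real, Real.norm_of_nonneg (by positivity), inv_mul_cancel₀ hn.ne']
  · have e : ⟪h t, B (h t)⟫_ℂ = ((s * ‖h t‖ ^ 2 : ℝ) : ℂ) := by
      refine Complex.ext ?_ ?_
      · rw [Complex.ofReal_re]; exact sub_eq_zero.mp ht0
      · rw [him, Complex.ofReal_im]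
    rw [map_smul, inner_smul_left, inner_smul_right, e, Complex.conj_ofReal]
    have : (‖h t‖ : ℂ) ≠ 0 := by exact_mod_cast hn.ne'
    push_cast
    field_simp

theorem convex_W (A : H →L[ℂ] H) : Convex ℝ (W A) := by
  rintro _ ⟨x, hx, rfl⟩ _ ⟨y, hy, rfl⟩ a b ha hb hab
  by_cases hxy : ⟪y, A y⟫_ℂ = ⟪x, A x⟫_ℂ
  · refine ⟨x, hx, ?_⟩
    rw [hxy, ← add_smul, hab, one_smul]
  set w0 := ⟪x, A x⟫_ℂ with hw0
  set w1 := ⟪y, A y⟫_ℂ with hw1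
  have hne : w1 - w0 ≠ 0 := sub_ne_zero.mpr hxy
  have hB : ∀ z : H, ‖z‖ = 1 → ⟪z, ((w1 - w0)⁻¹ • (A - w0 • (1 : H →L[ℂ] H))) z⟫_ℂ =
      (w1 - w0)⁻¹ * (⟪z, A z⟫_ℂ - w0) := by
    intro z hz
    simp only [smul_apply, sub_apply, one_apply_eq_self, inner_smul_right, inner_sub_right,
      inner_self_eq_norm_sq_to_K, hz]
    simp
  obtain ⟨z, hz, hz'⟩ := exists_unit_real ((w1 - w0)⁻¹ • (A - w0 • (1 : H →L[ℂ] H))) hx hy
    (by rw [hB x hx, ← hw0, sub_self, mul_zero])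
    (by rw [hB y hy, ← hw1, inv_mul_cancel₀ hne]) hb (by linarith)
  refine ⟨z, hz, ?_⟩
  rw [hB z hz, inv_mul_eq_iff_eq_mul₀ hne, sub_eq_iff_eq_add] at hz'
  rw [hz', Complex.real_smul, Complex.real_smul]
  have : (a : ℂ) = 1 - b := by
    rw [← Complex.ofReal_one, ← Complex.ofReal_sub]; congr 1; linarith
  rw [this]
  ring

lemma norm_le_of_mem_W {A : H →L[ℂ] H} {z : ℂ} (hz : z ∈ W A) : ‖z‖ ≤ ‖A‖ := by
  obtain ⟨x, hx, rfl⟩ := hz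
  calc ‖⟪x, A x⟫_ℂ‖ ≤ ‖x‖ * ‖A x‖ := norm_inner_le_norm _ _
    _ ≤ ‖x‖ * (‖A‖ * ‖x‖) := by gcongr; exact A.le_opNorm x
    _ = ‖A‖ := by rw [hx]; ring

lemma W_nonempty [Nontrivial H] (A : H →L[ℂ] H) : (W A).Nonempty := by
  obtain ⟨x, hx⟩ := exists_norm_eq H zero_le_one
  exact ⟨_, x, hx, rfl⟩

end Vale.Agent.P123
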