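import Vale.Agent.P123.Polygon
import Vale.Agent.P123.NumRange
import Mathlib.Analysis.SpecialFunctions.Trigonometric.Bounds
import Mathlib.Analysis.Convex.Topology
import Mathlib.Topology.MetricSpace.Thickening

/-! Polygons around a compact convex set, and the Crouzeix bound. -/

open scoped InnerProductSpace ComplexConjugate

namespace Vale.Agent.P123

lemma real_edge {α β x y ε B s co : ℝ} (hs : 0 < s) (hco : co < 1) (hε : 0 < ε) (hB : 0 ≤ B)
    (h1 : B * s ≤ ε * co) (h2 : α ≤ -(ε * (1 - co))) (h3 : ε * (1 - co) ≤ α * co + β * s)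
    (hx : ε ≤ x) (hy : -B ≤ y) : ε ^ 2 * (1 - co) / s ≤ β * x - α * y := by
  rw [div_le_iff₀ hs]
  have hco0 : 0 ≤ co := by
    have : 0 ≤ ε * co := le_trans (by positivity) h1
    exact (mul_nonneg_iff_of_pos_left hε).mp this
  have h4 : 0 < ε * (1 - co) := mul_pos hε (by linarith)
  have hα : 0 ≤ -α := by linarith
  have h5 : 0 ≤ ε * (1 - co) - α * co := by nlinarith
  have h6 : (ε * (1 - co) - α * co) * ε ≤ (β * s) * x :=
    mul_le_mul (by linarith) hx hε.le (by linarith)
  have h7 : -α * (-B) ≤ -α * y := by gcongr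
  have h8 : -α * (B * s) ≤ -α * (ε * co) := by gcongr
  have h9 : (-α * (-B)) * s ≤ (-α * y) * s := by gcongr
  nlinarith

lemma complex_edge {u p p' w : ℂ} {ε ρ s co : ℝ} (hu : ‖u‖ = 1) (hs : 0 < s) (hco : co < 1)
    (hsc : s ^ 2 + co ^ 2 = 1) (hε : 0 < ε) (h1 : (2 * ρ + ε) * s ≤ ε * co)
    (hp : ‖p‖ ≤ ρ) (hw : ‖w‖ ≤ ρ)
    (a1 : (conj u * p').re ≤ (conj u * p).re)
    (a2 : (conj (u * (co + s * Complex.I)) * p).re ≤ (conj (u * (co + s * Complex.I)) * p').re)
    (a3 : (conj u * w).re ≤ (conj u * p).re) :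
    ε ^ 2 * (1 - co) / s ≤
      (conj ((p' + ε * (u * (co + s * Complex.I))) - (p + ε * u)) * (w - (p + ε * u))).im := by
  have huu : conj u * u = 1 := by rw [Complex.conj_mul', hu]; simp
  have hρ : 0 ≤ ρ := (norm_nonneg _).trans hp
  set P := conj u * p with hP
  set P' := conj u * p' with hP'
  set V := conj u * w with hV
  have e1 : conj ((p' + ε * (u * (co + s * Complex.I))) - (p + ε * u)) * (w - (p + ε * u)) =
      conj (P' + ε * (co + s * Complex.I) - (P + ε)) * (V - (P + ε)) := by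
    have f1 : P' + ε * (co + s * Complex.I) - (P + ε) =
        conj u * ((p' + ε * (u * (co + s * Complex.I))) - (p + ε * u)) := by
      rw [hP, hP']
      linear_combination (-(ε : ℂ) * (co + s * Complex.I) + ε) * huu
    have f2 : V - (P + ε) = conj u * (w - (p + ε * u)) := by
      rw [hP, hV]
      linear_combination (ε : ℂ) * huu
    rw [f1, f2, map_mul, Complex.conj_conj]
    linear_combination (-(conj ((p' + ε * (u * (co + s * Complex.I))) - (p + ε * u)) *
      (w - (p + ε * u)))) * huu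
  have e2 : ∀ z : ℂ, (conj (u * (co + s * Complex.I)) * z).re =
      co * (conj u * z).re + s * (conj u * z).im := by
    intro z
    have : conj (u * (co + s * Complex.I)) * z = (co - s * Complex.I) * (conj u * z) := by
      simp only [map_mul, map_add, Complex.conj_ofReal, Complex.conj_I]
      ring
    rw [this]
    simp only [Complex.mul_re (co - s * Complex.I)]
    simp
  rw [e2, e2, ← hP, ← hP'] at a2
  have hy : -(2 * ρ + ε) ≤ P.im - V.im := by
    have b1 : |P.im| ≤ ρ := (Complex.abs_im_le_norm _).trans (by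
      rw [hP, norm_mul, Complex.norm_conj, hu, one_mul]; exact hp)
    have b2 : |V.im| ≤ ρ := (Complex.abs_im_le_norm _).trans (by
      rw [hV, norm_mul, Complex.norm_conj, hu, one_mul]; exact hw)
    linarith [(abs_le.mp b1).1, (abs_le.mp b2).2]
  have := real_edge (α := P'.re + ε * co - (P.re + ε)) (β := P'.im + ε * s - P.im)
    (x := P.re + ε - V.re) (y := P.im - V.im) hs hco hε (by positivity) h1 (by linarith)
    (by nlinarith) (by linarith) hy
  rw [e1]
  refine this.trans (le_of_eq ?_)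
  simp only [Complex.mul_im, Complex.mul_re, Complex.sub_im, Complex.sub_re, Complex.add_re,
    Complex.add_im, Complex.conj_re, Complex.conj_im, Complex.ofReal_re, Complex.ofReal_im,
    Complex.I_re, Complex.I_im]
  ring

lemma exists_polygon {K : Set ℂ} (hK : IsCompact K) (hne : K.Nonempty) (hconv : Convex ℝ K)
    {ε : ℝ} (hε : 0 < ε) :
    ∃ (N : ℕ) (q : ℕ → ℂ) (c : ℝ), 0 < N ∧ 0 < c ∧ q N = q 0 ∧
      (∀ j, ∀ w ∈ K, c ≤ (conj (q (j + 1) - q j) * (w - q j)).im) ∧
      ∀ j, ∀ t ∈ Set.Icc (0 : ℝ) 1, pt q j t ∈ Metric.cthickening ε K := by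
  obtain ⟨ρ, hρ⟩ := hK.isBounded.exists_norm_le
  have hρ0 : 0 ≤ ρ := by
    obtain ⟨z, hz⟩ := hne
    exact (norm_nonneg z).trans (hρ z hz)
  have hmax : ∀ u : ℂ, ∃ p ∈ K, ∀ z ∈ K, (conj u * z).re ≤ (conj u * p).re := by
    intro u
    obtain ⟨p, hp, hp'⟩ := hK.exists_isMaxOn hne (f := fun z => (conj u * z).re) (by fun_prop)
    exact ⟨p, hp, fun z hz => hp' hz⟩
  choose p hpK hp using hmax
  have hB : 0 < 2 * ρ + ε := by positivity
  set m : ℝ := min 1 (ε / (2 * (2 * ρ + ε))) with hm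
  have hm0 : 0 < m := lt_min one_pos (by positivity)
  obtain ⟨N, hN⟩ := exists_nat_gt (2 * Real.pi / m)
  have hN0 : (0 : ℝ) < N := lt_trans (by have := Real.pi_pos; positivity) hN
  set δ : ℝ := 2 * Real.pi / N with hδ
  have hδ0 : 0 < δ := by have := Real.pi_pos; positivity
  have hδm : δ < m := by
    rw [hδ, div_lt_iff₀ hN0]
    rw [div_lt_iff₀ hm0] at hN
    linarith
  have hδ1 : δ < 1 := hδm.trans_le (min_le_left _ _)
  have hδ2 : δ < ε / (2 * (2 * ρ + ε)) := hδm.trans_le (min_le_right _ _)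
  have hsin : 0 < Real.sin δ :=
    Real.sin_pos_of_pos_of_lt_pi hδ0 (by linarith [Real.two_le_pi])
  have hsc : Real.sin δ ^ 2 + Real.cos δ ^ 2 = 1 := Real.sin_sq_add_cos_sq δ
  have hcos : Real.cos δ < 1 := by nlinarith [Real.cos_le_one δ]
  have hcos2 : 1 / 2 ≤ Real.cos δ := by
    have := Real.one_sub_sq_div_two_le_cos (x := δ)
    nlinarith
  have h1 : (2 * ρ + ε) * Real.sin δ ≤ ε * Real.cos δ := by
    have h2 : Real.sin δ ≤ δ := Real.sin_le hδ0.le
    rw [lt_div_iff₀ (by positivity)] at hδ2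
    nlinarith
  set u : ℕ → ℂ := fun j => Complex.exp ((j * δ : ℝ) * Complex.I) with hu
  have hun : ∀ j, ‖u j‖ = 1 := fun j => Complex.norm_exp_ofReal_mul_I _
  have hus : ∀ j, u (j + 1) = u j * (Real.cos δ + Real.sin δ * Complex.I) := by
    intro j
    rw [hu]
    dsimp only
    rw [Complex.ofReal_cos, Complex.ofReal_sin, ← Complex.exp_mul_I, ← Complex.exp_add]
    congr 1
    push_cast
    ring
  have huN : u N = u 0 := by
    rw [hu]
    dsimp only
    have : (N : ℝ) * δ = 2 * Real.pi := by rw [hδ]; field_simp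
    rw [this]
    simp
  refine ⟨N, fun j => p (u j) + ε * u j, ε ^ 2 * (1 - Real.cos δ) / Real.sin δ,
    by exact_mod_cast hN0, ?_, by simp only [huN], fun j w hw => ?_, fun j t ht => ?_⟩
  · have : 0 < 1 - Real.cos δ := by linarith
    positivity
  · have := complex_edge (u := u j) (p := p (u j)) (p' := p (u (j + 1))) (w := w) (hun j) hsin hcos
      hsc hε h1 (hρ _ (hpK _)) (hρ _ hw) (hp _ _ (hpK _))
      (by rw [← hus]; exact hp _ _ (hpK _)) (hp _ _ hw)
    rw [← hus] at this
    exact this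
  · have hz : (1 - t) • p (u j) + t • p (u (j + 1)) ∈ K :=
      hconv (hpK _) (hpK _) (by linarith [ht.2]) ht.1 (by ring)
    refine Metric.mem_cthickening_of_dist_le _ _ _ _ hz ?_
    have e : pt (fun j => p (u j) + ε * u j) j t - ((1 - t) • p (u j) + t • p (u (j + 1))) =
        ε * (((1 - t : ℝ) : ℂ) * u j + t * u (j + 1)) := by
      simp only [pt, Complex.real_smul]
      push_cast
      ring
    rw [dist_eq_norm, e, norm_mul, Complex.norm_real, Real.norm_of_nonneg hε.le]
    have : ‖((1 - t : ℝ) : ℂ) * u j + t * u (j + 1)‖ ≤ 1 := by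
      refine (norm_add_le _ _).trans ?_
      rw [norm_mul, norm_mul, hun, hun, Complex.norm_real, Complex.norm_real,
        Real.norm_of_nonneg (by linarith [ht.2]), Real.norm_of_nonneg ht.1]
      linarith
    calc ε * _ ≤ ε * 1 := by gcongr
      _ = ε := mul_one ε

variable {H : Type*} [NormedAddCommGroup H] [InnerProductSpace ℂ H] [CompleteSpace H]

theorem crouzeix_of_lt [Nontrivial H] (A : H →L[ℂ] H) (P : Polynomial ℂ) {S M : ℝ}
    (hS : ∀ z ∈ W A, ‖P.eval z‖ ≤ S) (hM : S < M) : ‖Polynomial.aeval A P‖ ≤ 2 * M := by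
  have hS0 : 0 ≤ S := by
    obtain ⟨z, hz⟩ := W_nonempty A
    exact (norm_nonneg _).trans (hS z hz)
  have hM0 : 0 < M := hS0.trans_lt hM
  have hbdd : Bornology.IsBounded (W A) :=
    isBounded_iff_forall_norm_le.mpr ⟨‖A‖, fun z hz => norm_le_of_mem_W hz⟩
  have hK : IsCompact (closure (W A)) := hbdd.isCompact_closure
  have hcont : Continuous fun z => ‖P.eval z‖ := P.continuous.norm
  have hsub : closure (W A) ⊆ {z | ‖P.eval z‖ < M} := fun z hz =>
    lt_of_le_of_lt (closure_minimal hS (isClosed_le hcont continuous_const) hz) hM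
  obtain ⟨ε, hε, hεs⟩ := hK.exists_cthickening_subset_open (isOpen_lt hcont continuous_const) hsub
  obtain ⟨N, q, c, hN0, hc, hN, hin, hpt⟩ :=
    exists_polygon hK (W_nonempty A).closure (convex_W A).closure hε
  have hI : Inside q N c A := by
    intro j _ x
    rcases eq_or_ne x 0 with rfl | hx
    · simp
    have hn : 0 < ‖x‖ := norm_pos_iff.mpr hx
    have h1 := hin j _ (subset_closure (⟨((‖x‖⁻¹ : ℝ) : ℂ) • x, by
      rw [norm_smul, Complex.norm_real, Real.norm_of_nonneg (by positivity),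
        inv_mul_cancel₀ hn.ne'], rfl⟩ : _ ∈ W A))
    have e : conj (q (j + 1) - q j) * (⟪x, A x⟫_ℂ - q j * ((‖x‖ ^ 2 : ℝ) : ℂ)) =
        ((‖x‖ ^ 2 : ℝ) : ℂ) * (conj (q (j + 1) - q j) *
          (⟪((‖x‖⁻¹ : ℝ) : ℂ) • x, A (((‖x‖⁻¹ : ℝ) : ℂ) • x)⟫_ℂ - q j)) := by
      rw [map_smul, inner_smul_left, inner_smul_right, Complex.conj_ofReal]
      have : (‖x‖ : ℂ) ≠ 0 := by exact_mod_cast hn.ne'
      push_cast
      field_simp
    rw [e, Complex.im_ofReal_mul, mul_comm]
    gcongr
  have := polygon_bound hI hc hN0 hN (Polynomial.C ((M⁻¹ : ℝ) : ℂ) * P) fun j _ t ht => by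
    rw [Polynomial.eval_mul, Polynomial.eval_C, norm_mul, Complex.norm_real,
      Real.norm_of_nonneg (by positivity), inv_mul_le_iff₀ hM0, mul_one]
    exact (hεs (hpt j t ht)).le
  rw [map_mul, Polynomial.aeval_C, Algebra.algebraMap_eq_smul_one, smul_mul_assoc, one_mul,
    norm_smul, Complex.norm_real, Real.norm_of_nonneg (by positivity), inv_mul_le_iff₀ hM0] at this
  linarith

theorem crouzeix [Nontrivial H] (A : H →L[ℂ] H) (P : Polynomial ℂ) :
    ‖Polynomial.aeval A P‖ ≤ 2 * sSup ((fun z => ‖P.eval z‖) '' W A) := by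
  have hbdd : Bornology.IsBounded (W A) :=
    isBounded_iff_forall_norm_le.mpr ⟨‖A‖, fun z hz => norm_le_of_mem_W hz⟩
  have hcont : Continuous fun z => ‖P.eval z‖ := P.continuous.norm
  have hb : BddAbove ((fun z => ‖P.eval z‖) '' W A) :=
    (hbdd.isCompact_closure.image hcont).bddAbove.mono (Set.image_mono subset_closure)
  refine le_of_forall_pos_le_add fun e he => ?_
  have := crouzeix_of_lt A P (S := sSup ((fun z => ‖P.eval z‖) '' W A))
    (M := sSup ((fun z => ‖P.eval z‖) '' W A) + e / 2)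
    (fun z hz => le_csSup hb ⟨z, hz, rfl⟩) (by linarith)
  linarith

end Vale.Agent.P123
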