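import Vale.Agent.P123.Cauchy
import Vale.Agent.P123.Key

/-! The bound 2 on a closed polygon around the numerical range. -/

open scoped InnerProductSpace ComplexConjugate

namespace Vale.Agent.P123

variable {H : Type*} [NormedAddCommGroup H] [InnerProductSpace ℂ H] [CompleteSpace H]

omit [CompleteSpace H] in
lemma pointwise_pos (R : H →L[ℂ] H) (hR : ∀ a, 0 ≤ (⟪a, R a⟫_ℂ).re) (f : ℂ) (hf : ‖f‖ ≤ 1)
    (n : ℕ) (y u x : H) (τ k : ℝ) :
    0 ≤ ((τ ^ 2 / 2 : ℝ) * (⟪y, R y⟫_ℂ + ⟪R y, y⟫_ℂ)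
      + τ * (f ^ n * (⟪y, R u⟫_ℂ + ⟪R y, u⟫_ℂ) - k * (f ^ (n + 1) * (⟪y, R x⟫_ℂ + ⟪R y, x⟫_ℂ)))
      + ((1 / 2 : ℝ) * (⟪u, R u⟫_ℂ + ⟪R u, u⟫_ℂ) - k * (f ^ 1 * (⟪u, R x⟫_ℂ + ⟪R u, x⟫_ℂ))
        + (k ^ 2 / 2 : ℝ) * (⟪x, R x⟫_ℂ + ⟪R x, x⟫_ℂ))).re := by
  set β : H → H → ℂ := fun a b => ⟪a, R b⟫_ℂ + ⟪R a, b⟫_ℂ with hβ
  have hre : ∀ a, 0 ≤ (β a a).re := by
    intro a
    have h1 := hR a
    have h2 : (⟪R a, a⟫_ℂ).re = (⟪a, R a⟫_ℂ).re := by
      rw [← inner_conj_symm, Complex.conj_re]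
    simp only [hβ, Complex.add_re, h2]
    linarith
  have hsymm : ∀ a b, β b a = conj (β a b) := by
    intro a b
    simp only [hβ, map_add, inner_conj_symm]
    ring
  have hexp : ∀ (a b : H) (s : ℂ), (β (a + s • b) (a + s • b)).re =
      (β a a).re + 2 * (s * β a b).re + ‖s‖ ^ 2 * (β b b).re := by
    intro a b s
    have e : β (a + s • b) (a + s • b) = β a a + (s * β a b + conj (s * β a b))
        + (conj s * s) * β b b := by
      rw [map_mul, ← hsymm a b]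
      simp only [hβ, map_add, map_smul, inner_add_left, inner_add_right, inner_smul_left,
        inner_smul_right]
      ring
    rw [e, Complex.conj_mul', ← Complex.ofReal_pow, Complex.add_re, Complex.add_re,
      Complex.add_re (s * β a b), Complex.conj_re, Complex.re_ofReal_mul]
    ring
  set b := u + (-(k * f)) • x with hb
  have h1 := hre ((τ : ℂ) • y + f ^ n • b)
  rw [hexp] at h1
  have h2 : (β b b).re = (β u u).re + 2 * (-(k * f) * β u x).re + ‖-(k * f)‖ ^ 2 * (β x x).re :=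
    hexp u x _
  have h3 : (β ((τ : ℂ) • y) ((τ : ℂ) • y)).re = τ ^ 2 * (β y y).re := by
    have := hexp 0 y τ
    simpa [hβ] using this
  have h4 : β ((τ : ℂ) • y) b = τ * (β y u - k * f * β y x) := by
    simp only [hβ, hb, map_add, map_smul, inner_add_right, inner_smul_left, inner_smul_right,
      Complex.conj_ofReal]
    ring
  have h5 : ‖f ^ n‖ ^ 2 * (β b b).re ≤ 1 * (β b b).re := by
    have : ‖f ^ n‖ ≤ 1 := by rw [norm_pow]; exact pow_le_one₀ (norm_nonneg _) hf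
    have h' := hre b
    gcongr
    exact pow_le_one₀ (norm_nonneg _) this
  have h6 : ‖-(k * f)‖ ^ 2 * (β x x).re ≤ k ^ 2 * (β x x).re := by
    refine mul_le_mul_of_nonneg_right ?_ (hre x)
    rw [norm_neg, norm_mul, mul_pow, Complex.norm_real, Real.norm_eq_abs, sq_abs]
    have : ‖f‖ ^ 2 ≤ 1 := pow_le_one₀ (norm_nonneg _) hf
    nlinarith [sq_nonneg k]
  rw [h3, h4] at h1
  change 0 ≤ ((τ ^ 2 / 2 : ℝ) * β y y + τ * (f ^ n * β y u - k * (f ^ (n + 1) * β y x))
      + ((1 / 2 : ℝ) * β u u - k * (f ^ 1 * β u x) + (k ^ 2 / 2 : ℝ) * β x x)).re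
  have e1 : (τ : ℂ) * (f ^ n * β y u - k * (f ^ (n + 1) * β y x)) =
      f ^ n * (τ * (β y u - k * f * β y x)) := by ring
  have e2 : (k : ℂ) * (f ^ 1 * β u x) = -(-(k * f) * β u x) := by ring
  rw [e1, e2]
  simp only [Complex.add_re, Complex.sub_re, Complex.neg_re, Complex.re_ofReal_mul]
  linarith

theorem bound_of_kernel {N : ℕ} (T : H →L[ℂ] H) (f : ℕ → ℝ → ℂ) (R : ℕ → ℝ → H →L[ℂ] H)
    (b : ℕ → ℝ) (hfc : ∀ j < N, Continuous (f j)) (hRc : ∀ j < N, Continuous (R j))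
    (hf : ∀ j < N, ∀ t ∈ Set.Icc (0 : ℝ) 1, ‖f j t‖ ≤ 1) (hb : ∀ j < N, ∀ t, ‖R j t‖ ≤ b j)
    (hcomm : ∀ j < N, ∀ t, Commute T (R j t))
    (hR : ∀ j < N, ∀ t, ∀ a, 0 ≤ (⟪a, R j t a⟫_ℂ).re)
    (hT : ∀ n : ℕ, cint N (fun j t => f j t ^ n • R j t) = T ^ n) : ‖T‖ ≤ 2 := by
  set E : ℕ → H →L[ℂ] H := fun n => cint N (fun j t => conj (f j t) ^ n • R j t) with hE
  have c1 : ∀ n : ℕ, ∀ j < N, Continuous fun t => f j t ^ n • R j t := fun n j hj => by
    have := hfc j hj; have := hRc j hj; fun_prop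
  have c2 : ∀ n : ℕ, ∀ j < N, Continuous fun t => conj (f j t) ^ n • R j t := fun n j hj => by
    have := hfc j hj; have := hRc j hj; fun_prop
  have hs : ∀ (n : ℕ) (a a' : H), ⟪a, (T ^ n) a'⟫_ℂ + ⟪E n a, a'⟫_ℂ =
      cint N (fun j t => f j t ^ n * (⟪a, R j t a'⟫_ℂ + ⟪R j t a, a'⟫_ℂ)) := by
    intro n a a'
    have e1 := cint_clm ((innerSL ℂ a).comp (ContinuousLinearMap.apply ℂ H a')) (c1 n)
    have e2 := cint_clm ((Complex.conjCLE : ℂ →L[ℝ] ℂ).comp
      (((innerSL ℂ a').comp (ContinuousLinearMap.apply ℂ H a)).restrictScalars ℝ)) (c2 n)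
    rw [hT] at e1
    simp only [ContinuousLinearMap.comp_apply, ContinuousLinearMap.apply_apply, innerSL_apply_apply,
      smul_apply, inner_smul_right, ContinuousLinearMap.coe_restrictScalars',
      ContinuousLinearEquiv.coe_coe, Complex.conjCLE_apply, map_mul, map_pow, Complex.conj_conj,
      inner_conj_symm] at e1 e2
    rw [← e1, hE]
    dsimp only
    rw [← e2, ← cint_add (fun j hj => by have := hfc j hj; have := hRc j hj; fun_prop)
      (fun j hj => by have := hfc j hj; have := hRc j hj; fun_prop)]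
    exact cint_congr fun j _ t => by ring
  have hE0 : E 0 = 1 := by simpa [hE] using hT 0
  refine key T E (∑ j ∈ Finset.range N, b j) (fun n => ?_) (fun n => ?_) (fun n => ?_) ?_
  · refine norm_cint_le fun j hj t ht => ?_
    rw [norm_smul, norm_pow, Complex.norm_conj]
    calc ‖f j t‖ ^ n * ‖R j t‖ ≤ 1 * b j := by
          gcongr
          exacts [pow_le_one₀ (norm_nonneg _) (hf j hj t ht), hb j hj t]
      _ = b j := one_mul _
  · rw [← hT]
    refine norm_cint_le fun j hj t ht => ?_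
    rw [norm_smul, norm_pow]
    calc ‖f j t‖ ^ n * ‖R j t‖ ≤ 1 * b j := by
          gcongr
          exacts [pow_le_one₀ (norm_nonneg _) (hf j hj t ht), hb j hj t]
      _ = b j := one_mul _
  · have e1 := cint_clm (ContinuousLinearMap.mul ℂ (H →L[ℂ] H) T) (c2 n)
    have e2 := cint_clm ((ContinuousLinearMap.mul ℂ (H →L[ℂ] H)).flip T) (c2 n)
    simp only [ContinuousLinearMap.flip_apply, ContinuousLinearMap.mul_apply'] at e1 e2
    rw [hE]
    dsimp only
    rw [← e1, ← e2]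
    exact cint_congr fun j hj t => by rw [smul_mul_assoc, mul_smul_comm, (hcomm j hj t).eq]
  · intro n y u x τ k
    have h0 : ∀ a : H, cint N (fun j t => ⟪a, R j t a⟫_ℂ + ⟪R j t a, a⟫_ℂ) =
        ((2 * ‖a‖ ^ 2 : ℝ) : ℂ) := by
      intro a
      have := hs 0 a a
      simp only [pow_zero, one_mul, hE0, one_apply_eq_self, inner_self_eq_norm_sq_to_K] at this
      rw [← this]
      push_cast
      simp only [Complex.coe_algebraMap]
      ring
    have cβ : ∀ (a a' : H), ∀ j < N, Continuous fun t => ⟪a, R j t a'⟫_ℂ + ⟪R j t a, a'⟫_ℂ :=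
      fun a a' j hj => by have := hRc j hj; fun_prop
    have hsm : ∀ (z : ℂ) (g : ℕ → ℝ → ℂ), cint N (fun j t => z * g j t) = z * cint N g :=
      fun z g => cint_smul z g
    have hpos := cint_nonneg (N := N) fun j hj t ht =>
      pointwise_pos (R j t) (hR j hj t) (f j t) (hf j hj t ht) n y u x τ k
    have hpos2 := hpos.trans (le_of_eq (cint_clm Complex.reCLM (N := N) (f := fun j t =>
      ((τ ^ 2 / 2 : ℝ) * (⟪y, R j t y⟫_ℂ + ⟪R j t y, y⟫_ℂ)
      + τ * (f j t ^ n * (⟪y, R j t u⟫_ℂ + ⟪R j t y, u⟫_ℂ) -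
        k * (f j t ^ (n + 1) * (⟪y, R j t x⟫_ℂ + ⟪R j t y, x⟫_ℂ)))
      + ((1 / 2 : ℝ) * (⟪u, R j t u⟫_ℂ + ⟪R j t u, u⟫_ℂ) -
        k * (f j t ^ 1 * (⟪u, R j t x⟫_ℂ + ⟪R j t u, x⟫_ℂ))
        + (k ^ 2 / 2 : ℝ) * (⟪x, R j t x⟫_ℂ + ⟪R j t x, x⟫_ℂ))))
      (fun j hj => by have := hfc j hj; have := hRc j hj; fun_prop)))
    rw [cint_add, cint_add, cint_add, cint_sub, hsm, hsm, hsm, hsm, hsm, cint_sub, hsm, h0, h0, h0,
      ← hs, ← hs, ← hs, pow_one] at hpos2
    · simp only [Complex.reCLM_apply, Complex.add_re, Complex.sub_re, Complex.re_ofReal_mul,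
        Complex.ofReal_re] at hpos2 ⊢
      linarith
    all_goals
      intro j hj
      have := hfc j hj
      have := hRc j hj
      fun_prop

theorem polygon_bound [Nontrivial H] {q : ℕ → ℂ} {N : ℕ} {c : ℝ} {A : H →L[ℂ] H}
    (h : Inside q N c A) (hc : 0 < c) (hN0 : 0 < N) (hN : q N = q 0) (P : Polynomial ℂ)
    (hP : ∀ j < N, ∀ t ∈ Set.Icc (0 : ℝ) 1, ‖P.eval (pt q j t)‖ ≤ 1) :
    ‖Polynomial.aeval A P‖ ≤ 2 := by
  obtain ⟨l, hl, hG⟩ := G_eq h hc hN0 hN
  refine bound_of_kernel (N := N) _ (fun j t => P.eval (pt q j t))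
    (fun j t => ((l⁻¹ : ℝ) : ℂ) • ((-Complex.I * (q (j + 1) - q j)) • resolvent A (pt q j t)))
    (fun j => l⁻¹ * (‖q (j + 1) - q j‖ * (‖q (j + 1) - q j‖ / c)))
    (fun j _ => P.continuous.comp (continuous_pt q j))
    (fun j hj => by have := h.cont hc hj; fun_prop) hP (fun j hj t => ?_) (fun j hj t => ?_)
    (fun j hj t a => ?_) (fun n => ?_)
  · rw [norm_smul, norm_smul, Complex.norm_real, Real.norm_of_nonneg (by positivity), norm_mul,
      norm_neg, Complex.norm_I, one_mul]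
    gcongr
    exact h.norm_le hc hj t
  · refine ((commute_resolvent (h.mem hc hj t) ?_).smul_right _).smul_right _
    have := (Commute.all P Polynomial.X).map (Polynomial.aeval A)
    simpa using this
  · rw [smul_apply, inner_smul_right, Complex.re_ofReal_mul]
    have := ((h j hj).shift t).re_nonneg hc a
    exact mul_nonneg (by positivity) this
  · have e := cauchy_poly h hc hN (P ^ n)
    rw [hG, map_pow, mul_smul_comm, mul_one] at e
    have e2 := cint_smul (N := N) (((l⁻¹ : ℝ) : ℂ) * (-Complex.I)) (fun j t =>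
      ((P ^ n).eval (pt q j t) * (q (j + 1) - q j)) • resolvent A (pt q j t))
    rw [e, smul_smul] at e2
    have e3 : ((l⁻¹ : ℝ) : ℂ) * (-Complex.I) * (l * Complex.I) = 1 := by
      have : (l : ℂ) ≠ 0 := by exact_mod_cast hl.ne'
      push_cast
      field_simp
      simp
    rw [e3, one_smul] at e2
    rw [← e2]
    refine cint_congr fun j _ t => ?_
    rw [Polynomial.eval_pow, smul_smul, smul_smul, smul_smul]
    congr 1
    ring

end Vale.Agent.P123
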